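import Vale.Agent.P151.EA.Critical

/-!
# No infinite cluster at the critical point: periodic graphs and Cayley graphs of groups

Periodic graphs of dimension at least two; Cayley graphs of groups with a virtual map onto
`ℤ ^ 2`, amenable or not; Cayley graphs of elementary amenable groups, in particular of virtually
solvable groups.
-/

namespace Vale.Agent.Results.P151.CriticalGroups

open Vale.Agent.P165 Vale.Agent.P151 MeasureTheory

/-- No infinite cluster means that no vertex has one. -/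
theorem everyone {V : Type} {G : SimpleGraph V} {p : unitInterval}
    (h : perc G p (hasInfinite G) = 0) :
    perc G p (hasInfinite G) = 0 ∧ ∀ x, perc G p (infAt G x) = 0 := by
  refine ⟨h, fun x => measure_mono_null ?_ h⟩
  rw [hasInfinite_eq]
  exact Set.subset_iUnion (fun y => infAt G y) x

theorem infinite_of_not_cyclic {Γ : Type} [Group Γ]
    (h : ∀ x : Γ, ¬(Subgroup.zpowers x).FiniteIndex) : Infinite Γ := by
  by_contra hf
  rw [not_infinite_iff_finite] at hf
  exact h 1 inferInstance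

theorem infinite_of_vz2 {Γ : Type} [Group Γ] (H : Subgroup Γ)
    (f : H →* Multiplicative (ℤ × ℤ)) (hf : Function.Surjective f) : Infinite Γ :=
  have : Infinite H := Infinite.of_surjective f hf
  Infinite.of_injective _ (Subtype.val_injective (p := fun x => x ∈ H))

/-- No percolation at the critical point: no infinite cluster, and `theta_x = 0` for every `x`. -/
def NoCriticalPercolation {V : Type} (G : SimpleGraph V) : Prop :=
  ∀ p : unitInterval, (p : ℝ) = pc G →
    perc G p (hasInfinite G) = 0 ∧ ∀ x, perc G p (infAt G x) = 0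

/-- Finite sets of small vertex boundary relative to their size. -/
def Amenable {V : Type} (G : SimpleGraph V) : Prop :=
  ∀ ε : ℝ, 0 < ε → ∃ A : Finset V, A.Nonempty ∧
    ({v | v ∉ A ∧ ∃ u ∈ A, G.Adj u v}.ncard : ℝ) ≤ ε * A.card

/-- A map to the plane, bounded along edges, whose translation automorphisms realise all of
`ℤ ^ 2` and have finitely many orbits. -/
def PlanePeriodic {V : Type} (G : SimpleGraph V) : Prop :=
  ∃ pos : V → ℝ × ℝ,
    (∀ z : ℤ × ℤ, ∃ φ : G ≃g G, ∀ v, pos (φ v) = pos v + ((z.1 : ℝ), (z.2 : ℝ))) ∧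
    (∃ R : Finset V, ∀ v, ∃ φ : G ≃g G,
      (∃ z : ℤ × ℤ, ∀ u, pos (φ u) = pos u + ((z.1 : ℝ), (z.2 : ℝ))) ∧ ∃ r ∈ R, φ r = v) ∧
    ∃ L : ℝ, ∀ x y, G.Adj x y → |(pos x).1 - (pos y).1| + |(pos x).2 - (pos y).2| ≤ L

/-- A periodic lattice of dimension at least two: invariant under the shifts of `ℤ ^ k`, bounded
steps, finitely many vertices in a unit cell. -/
def LatticePeriodic {V : Type} (G : SimpleGraph V) : Prop :=
  ∃ (k : ℕ) (pos : V → Fin k → ℝ), 2 ≤ k ∧
    (∀ z : Fin k → ℤ, ∃ φ : G ≃g G, ∀ v i, pos (φ v) i = pos v i + z i) ∧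
    {v | ∀ i, pos v i ∈ Set.Ico (0 : ℝ) 1}.Finite ∧
    ∃ L : ℝ, ∀ x y, G.Adj x y → ∀ i, |pos x i - pos y i| ≤ L

/-- A subgroup of finite index maps onto `ℤ ^ 2`. -/
def VirtuallyOntoZ2 (Γ : Type) [Group Γ] : Prop :=
  ∃ H : Subgroup Γ, H.FiniteIndex ∧ ∃ f : H →* Multiplicative (ℤ × ℤ), Function.Surjective f

/-- Every infinite finitely generated subgroup maps virtually onto `ℤ`. -/
def VirtuallyIndicableSubgroups (Γ : Type) [Group Γ] : Prop :=
  ∀ H : Subgroup Γ, Group.FG H → Infinite H → ∃ K : Subgroup H, K.FiniteIndex ∧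
    ∃ f : K →* Multiplicative ℤ, Function.Surjective f

theorem result :
    (∀ (V : Type) (G : SimpleGraph V), G.Connected → (∀ v, (G.neighborSet v).Finite) →
      Amenable G → PlanePeriodic G → pc G < 1 ∧ NoCriticalPercolation G) ∧
    (∀ (V : Type) (G : SimpleGraph V), G.Connected → LatticePeriodic G →
      pc G < 1 ∧ NoCriticalPercolation G) ∧
    (∀ (Γ : Type) [Group Γ] [DecidableEq Γ] (S : Finset Γ), (∀ a ∈ S, a⁻¹ ∈ S) → (1 : Γ) ∉ S →
      (cayley S).Connected →
      (Group.IsVirtuallyNilpotent Γ ∧ (∀ x : Γ, ¬(Subgroup.zpowers x).FiniteIndex) ∨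
        VirtuallyOntoZ2 Γ) →
      pc (cayley S) < 1 ∧ NoCriticalPercolation (cayley S)) ∧
    (∀ (Γ : Type) [Group Γ] [DecidableEq Γ] [Infinite Γ] (S : Finset Γ), (∀ a ∈ S, a⁻¹ ∈ S) →
      (1 : Γ) ∉ S → (cayley S).Connected →
      (VirtuallyIndicableSubgroups Γ ∨ EA.ElementaryAmenable Γ ∨
        ∃ H : Subgroup Γ, H.FiniteIndex ∧ Group.IsSolvable H) →
      pc (cayley S) < 1 → NoCriticalPercolation (cayley S)) := by
  refine ⟨?_, ?_, ?_, ?_⟩
  · intro V G hc hfin ha ⟨pos, hshift, ⟨R, hR⟩, L, hL⟩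
    obtain ⟨o⟩ := hc.nonempty
    let Ch : Zt.Chart G :=
      { pos := fun v => pos v - pos o
        o := o
        pos_o := sub_self _
        shift := fun z => by
          obtain ⟨φ, hφ⟩ := hshift z
          refine ⟨φ, fun v => ?_⟩
          show pos (φ v) - pos o = pos v - pos o + Zt.gridPt z
          rw [hφ, Zt.gridPt]
          abel
        orbits := ⟨R, fun v => by
          obtain ⟨φ, ⟨z, hz⟩, hr⟩ := hR v
          refine ⟨φ, z, fun u => ?_, hr⟩
          show pos (φ u) - pos o = pos u - pos o + Zt.gridPt z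
          rw [hz, Zt.gridPt]
          abel⟩
        short := ⟨L, fun x y h => by simpa [Zt.size] using hL x y h⟩ }
    obtain ⟨h1, h2⟩ := Zt.critical_chart hc hfin ha Ch
    exact ⟨h1, fun p hp => everyone (h2 p hp)⟩
  · intro V G hc ⟨k, pos, hk, hshift, hcell, L, hL⟩
    obtain ⟨h1, h2⟩ := Zt.critical_lattice hk hc hshift hcell hL
    exact ⟨h1, fun p hp => everyone (h2 p hp)⟩
  · intro Γ _ _ S hinv hone hc hG
    have hS : Gens S := ⟨hinv, hone⟩
    obtain ⟨hn, hcyc⟩ | ⟨H, hH, f, hf⟩ := hG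
    · have := infinite_of_not_cyclic hcyc
      have : Group.FG Γ := Zt.fg_of_connected hS hc
      obtain ⟨h1, h2⟩ := EA.critical_of_vz2 hS hc (Zt.exists_map_Z2 Γ hn hcyc)
      exact ⟨h1, fun p hp => everyone (h2 p hp)⟩
    · have := infinite_of_vz2 H f hf
      obtain ⟨h1, h2⟩ := EA.critical_of_vz2 hS hc ⟨H, hH, f, hf⟩
      exact ⟨h1, fun p hp => everyone (h2 p hp)⟩
  · intro Γ _ _ _ S hinv hone hc hG hpc p hp
    refine everyone (EA.critical_of_hvind ⟨hinv, hone⟩ hc ?_ hpc p hp)
    obtain h | h | ⟨H, hH, hsol⟩ := hG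
    · exact h
    · exact h.hvind
    · exact (EA.ElementaryAmenable.of_virtuallySolvable H hsol).hvind

end Vale.Agent.Results.P151.CriticalGroups
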