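import Vale.Agent.P151.Stretched.Main
import Vale.Agent.P151.Stretched.Returns

namespace Vale.Agent.Results.P151.StretchedGrowth

open Vale.Agent.P151 Vale.Agent.P151.Stretched Vale.Agent.P165

theorem ball_walk {Γ : Type} [Group Γ] [DecidableEq Γ] {S : Finset Γ} (hS : Gens S) :
    ∀ (r : ℕ) (x : Γ), x ∈ ball S r ↔ ∃ w : (cayley S).Walk 1 x, w.length ≤ r := by
  intro r x
  constructor
  · induction r generalizing x with
    | zero =>
      intro hx
      rw [ball, Finset.mem_singleton] at hx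
      subst hx
      exact ⟨.nil, le_rfl⟩
    | succ r ih =>
      intro hx
      rw [ball, Finset.mem_union] at hx
      rcases hx with hx | hx
      · obtain ⟨w, hw⟩ := ih x hx; exact ⟨w, by omega⟩
      · obtain ⟨⟨z, a⟩, hq, rfl⟩ := Finset.mem_image.1 hx
        obtain ⟨hz, ha⟩ := Finset.mem_product.1 hq
        obtain ⟨w, hw⟩ := ih z hz
        have hadj : (cayley S).Adj z (z * a) := hS.adj.2 (by simpa using ha)
        exact ⟨w.concat hadj, by rw [SimpleGraph.Walk.length_concat]; omega⟩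
  · rintro ⟨w, hw⟩
    simpa using ball_mono hw (mem_ball_of_walk hS w)

theorem result (Γ : Type) [Group Γ] [DecidableEq Γ] [Infinite Γ] (S : Finset Γ)
    (hinv : ∀ a ∈ S, a⁻¹ ∈ S) (hone : (1 : Γ) ∉ S)
    (hconn : (cayley S).Connected) (hpc : pc (cayley S) < 1)
    (p : unitInterval) (hp : (p : ℝ) = pc (cayley S)) (c g : ℝ) (hc : 0 < c) (hg : 0 < g) :
    ((∀ r : ℕ, 1 ≤ r → Real.exp (c * (r : ℝ) ^ g)
        ≤ ({x | ∃ w : (cayley S).Walk 1 x, w.length ≤ r}.ncard : ℝ)) →
      perc (cayley S) p (hasInfinite (cayley S)) = 0) ∧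
    ((∀ k : ℕ, 1 ≤ k → step S (2 * k) 1 1 ≤ Real.exp (-c * (k : ℝ) ^ g)) →
      perc (cayley S) p (hasInfinite (cayley S)) = 0) := by
  refine ⟨fun hgrowth => no_percolation_of_stretched ⟨hinv, hone⟩ hconn hpc hc hg (fun r hr => ?_) p hp,
    fun hret => no_percolation_of_stretched ⟨hinv, hone⟩ hconn hpc hc hg
      (growth_of_returns ⟨hinv, hone⟩ hconn hret) p hp⟩
  refine (hgrowth r hr).trans (le_of_eq ?_)
  rw [← Set.ncard_coe_finset (ball S r)]
  congr 2
  ext x
  exact (ball_walk ⟨hinv, hone⟩ r x).symm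

end Vale.Agent.Results.P151.StretchedGrowth
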